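import Vale.Agent.P011UF2.Defs
import Vale.Agent.P011LL.Main
import Vale.Agent.P011LQ.Sub
import Vale.Agent.P011.H308.L2.Final

/-!
The theorem of Landherr in degree three over function fields, for descent data.
-/

set_option autoImplicit false
set_option linter.all false

namespace Vale.Agent.P011UF2d

open Module Matrix Vale.Agent.P011L Vale.Agent.P011LD Vale.Agent.P011LE Vale.Agent.P011LQ
  Vale.Agent.P011LL Vale.Agent.P011UF2 Vale.Agent.P011.H271

/-- The theorem for a ring whose nonzero elements are units. -/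
theorem landR {k F A Ω : Type} [Field k] [GFF k] [Field F] [StarRing F] [Ring A] [Nontrivial A]
    [StarRing A] [Algebra k F] [Algebra k A] [Algebra F A] [IsScalarTower k F A] [Field Ω]
    [Algebra F Ω] {n : ℕ} (hu : ∀ a : A, IsUnit a ∨ a = 0)
    (h1 : ∀ x : F, star x = x ↔ x ∈ Set.range (algebraMap k F)) (h2 : ∃ x : F, star x ≠ x)
    (h3 : FiniteDimensional F A) (h4 : Algebra.IsCentral F A)
    (h5 : ∀ (x : F) (y : A), star (x • y) = star x • star y) (hd : finrank F A = n ^ 2)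
    (f : A →ₐ[F] Matrix (Fin n) (Fin n) Ω) {e : A} (he : star e = e) (e0 : e ≠ 0) {z : F}
    (hz : (f e).det = algebraMap F Ω (z * star z)) : ∃ t : A, t ≠ 0 ∧ e = t * star t := by
  letI := DivisionRing.ofIsUnitOrEqZero hu
  obtain ⟨t, t0, ht⟩ := P011.H308.L2.landG (k := k) (K := F) (D := A) ⟨h1, h2, h3, h4, h5⟩ hd f
    (star_one A) he one_ne_zero e0 (z := z) (by rw [map_one, det_one, one_mul]; exact hz)
  exact ⟨t, t0, by rw [ht, mul_one]⟩

section

variable {k K n : Type} [Field k] [Field K] [Algebra k K] [Fintype n] [DecidableEq n]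
  {o : (K ≃ₐ[k] K) →* ℤˣ} {M : (K ≃ₐ[k] K) → GL n K} {x : Matrix n n K}

theorem spl_of (W : Submodule K (n → K)) (h : finrank K W = 1)
    (hW : ∀ σ, o σ = 1 → ∀ v ∈ W, (M σ).1 *ᵥ (σ ∘ v) ∈ W) : Spl o M := by
  obtain ⟨v, v0, hv⟩ := finrank_eq_one_iff'.1 h
  refine ⟨v.1, fun e => v0 (Subtype.ext e), fun σ a => ?_⟩
  obtain ⟨c, e⟩ := hv ⟨_, hW σ a v.1 v.2⟩
  exact ⟨c, (congrArg Subtype.val e).symm⟩

theorem mv (σ : K ≃ₐ[k] K) (x : Matrix n n K) (v : n → K) :
    x.map σ *ᵥ (σ ∘ v) = σ ∘ (x *ᵥ v) :=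
  funext fun i => (RingHom.map_mulVec (σ : K →+* K) x v i).symm

/-- In degree three, the algebra of descent data without stable line has no zero divisor. -/
theorem det_ne (hn : Fintype.card n = 3) (hs : ¬Spl o M) (hx : InB o M x) (x0 : x ≠ 0) :
    x.det ≠ 0 := by
  intro d
  have e := (toLin' x).finrank_range_add_finrank_ker
  rw [finrank_fintype_fun_eq_card, hn] at e
  have e1 : finrank K (LinearMap.range (toLin' x)) ≠ 0 := fun c =>
    x0 (toLin'.injective (by
      rw [map_zero]; exact LinearMap.range_eq_bot.1 (Submodule.finrank_eq_zero.1 c)))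
  have e2 : finrank K (LinearMap.ker (toLin' x)) ≠ 0 := fun c => by
    obtain ⟨v, v0, hv⟩ := exists_mulVec_eq_zero_iff.2 d
    exact v0 ((Submodule.eq_bot_iff _).1 (Submodule.finrank_eq_zero.1 c) v hv)
  by_cases c : finrank K (LinearMap.ker (toLin' x)) = 1
  · refine hs (spl_of _ c fun σ a v hv => ?_)
    have hv' : x *ᵥ v = 0 := hv
    show x *ᵥ _ = 0
    rw [mulVec_mulVec, hx σ a, ← mulVec_mulVec, mv, hv']
    exact (congrArg _ (funext fun _ => map_zero σ)).trans (mulVec_zero _)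
  · refine hs (spl_of (LinearMap.range (toLin' x)) (by omega) ?_)
    rintro σ a _ ⟨v, rfl⟩
    refine ⟨(M σ).1 *ᵥ (σ ∘ v), ?_⟩
    rw [toLin'_apply, toLin'_apply, mulVec_mulVec, hx σ a, ← mulVec_mulVec, mv]

theorem inB_inv (hx : InB o M x) (d : x.det ≠ 0) : InB o M x⁻¹ := fun σ a => by
  have u := (isUnit_iff_isUnit_det _).2 d.isUnit
  have e : x.map σ * x⁻¹.map σ = 1 := by rw [← map_mul', mul_nonsing_inv _ d.isUnit, map_one']
  refine u.mul_left_cancel ?_
  rw [← mul_assoc, mul_nonsing_inv _ d.isUnit, one_mul, ← mul_assoc, hx σ a, mul_assoc, e, mul_one]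

/-- **Landherr**, degree three, function fields. -/
theorem land3 [GFF k] [IsGalois k K] {M : (K ≃ₐ[k] K) → GL (Fin 3) K} (h : PD o M)
    (hs : ¬Spl o M) {s0 : K ≃ₐ[k] K} (h0 : o s0 ≠ 1) {u : Matrix (Fin 3) (Fin 3) K}
    (hu : SymB o M u) {z : K} (z0 : z ≠ 0) (zf : ∀ σ, o σ = 1 → σ z = z)
    (hz : u.det = z * s0 z) : ∃ t : GL (Fin 3) K, InB o M t.1 ∧
      ∀ s, o s ≠ 1 → u * (M s).1 = t.1 * (M s).1 * (t.1.map s)ᵀ := by
  let F := IntermediateField.fixedField o.ker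
  have mem : ∀ {x}, (∀ σ, o σ = 1 → σ x = x) → x ∈ F := fun a σ => a σ.1 σ.2
  have fx : ∀ (x : F) σ, o σ = 1 → σ x.1 = x.1 := fun x σ a => x.2 ⟨σ, a⟩
  have out : ∀ (x : F) s, o s ≠ 1 → s x.1 = s0 x.1 := fun x s a => by
    rw [← fx x _ (o_div a h0), ← AlgEquiv.mul_apply, mul_inv_cancel_left, fx x _ (o_div a h0)]
  have sm : ∀ x : F, s0 x.1 ∈ F := fun x => mem fun σ a =>
    out x (σ * s0) (by rwa [map_mul, a, one_mul])
  letI : StarRing F :=
    { star := fun x => ⟨s0 x.1, sm x⟩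
      star_involutive := fun x => Subtype.ext (fx x _ (o_mul h0 h0))
      star_mul := fun x y => Subtype.ext ((map_mul s0 x.1 y.1).trans (mul_comm _ _))
      star_add := fun x y => Subtype.ext (map_add s0 x.1 y.1) }
  have kf : ∀ x : F, star x = x ↔ x ∈ Set.range (algebraMap k F) := fun x => ⟨fun a => by
    obtain ⟨c, e⟩ := fixed_top (k := k) (c := x.1) fun σ => by
      by_cases b : o σ = 1
      exacts [fx x σ b, (out x σ b).trans (congrArg Subtype.val a)]
    exact ⟨c, Subtype.ext e⟩, by rintro ⟨c, rfl⟩; exact Subtype.ext (s0.commutes c)⟩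
  have sn : ∃ x : F, star x ≠ x := by
    obtain ⟨E, -, -, hE⟩ := exists_field (Γ := o.ker) (h.cont.imp fun σ _ a => a.1)
    by_contra c
    push Not at c
    exact h0 ((hE s0).2 fun x hx => congrArg Subtype.val
      (c ⟨x, mem fun σ a => (hE σ).1 a x hx⟩))
  have r0 : ∀ x : Matrix (Fin 3) (Fin 3) K, Rl M s0 x ((M s0).1 * (x.map s0)ᵀ * (M s0)⁻¹.1) :=
    fun x => Units.inv_mul_cancel_right _ _
  let τ : alg o M → alg o M := fun x => ⟨_, rl_mem h h0 fun s a => (r0 x.1).all h x.2 h0 a⟩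
  have rt : ∀ (x : alg o M) s, o s ≠ 1 → Rl M s x.1 (τ x).1 := fun x s a => (r0 x.1).all h x.2 h0 a
  have te : ∀ x y : alg o M, Rl M s0 x.1 y.1 → τ x = y := fun x y r => Subtype.ext ((r0 _).uniq r)
  letI : StarRing (alg o M) :=
    { star := τ
      star_involutive := fun x => te _ _ ((rt x _ h0).symm h x.2 h0)
      star_mul := fun x y => te _ _ (by
        show (τ y).1 * (τ x).1 * _ = _ * ((x.1 * y.1).map s0)ᵀ
        rw [mul_assoc, rt x _ h0, ← mul_assoc, rt y _ h0, map_mul', transpose_mul, mul_assoc])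
      star_add := fun x y => te _ _ (by
        show ((τ x).1 + (τ y).1) * _ = _ * ((x.1 + y.1).map s0)ᵀ
        rw [add_mul, rt x _ h0, rt y _ h0, Matrix.map_add _ (map_add s0), transpose_add, mul_add]) }
  have fr := frm h
  have un : ∀ a : alg o M, a ≠ 0 → a.1.det ≠ 0 := fun a b =>
    det_ne (Fintype.card_fin 3) hs a.2 fun c => b (Subtype.ext c)
  have ud : u.det ≠ 0 := hz ▸ mul_ne_zero z0 ((_root_.map_ne_zero s0).2 z0)
  obtain ⟨t, t0, ht⟩ := landR (k := k) (F := F) (A := alg o M) (n := 3)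
    (fun a => or_iff_not_imp_right.2 fun b => IsUnit.of_mul_eq_one ⟨a.1⁻¹, inB_inv a.2 (un a b)⟩
      (Subtype.ext (mul_nonsing_inv _ (un a b).isUnit))) kf sn fr.finrank.1
    ⟨fun x hx => by
      obtain ⟨c, e⟩ := fr.scalar (RingHom.id K) (M := x.1) fun y hy =>
        (congrArg Subtype.val (Subalgebra.mem_center_iff.1 hx ⟨y, hy⟩)).symm
      refine ⟨⟨c, mem fun σ a => ?_⟩, Subtype.ext ?_⟩
      · have p := x.2 σ a
        rw [e, P011LD.map_smul', map_one', smul_mul_assoc, mul_smul_comm, one_mul, mul_one] at p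
        exact (smul_left_injective K (M σ).ne_zero p).symm
      · exact (Algebra.algebraMap_eq_smul_one (A := Matrix (Fin 3) (Fin 3) K) _).trans e.symm⟩
    (fun c x => te _ _ (by
      show (s0 c.1 • (τ x).1) * _ = _ * ((c.1 • x.1).map s0)ᵀ
      rw [smul_mul_assoc, rt x _ h0, P011LD.map_smul', transpose_smul, mul_smul_comm]))
    (by simpa using fr.finrank.2) (alg o M).val (e := ⟨u, hu.1⟩) (te _ _ (hu.2 s0 h0))
    (fun c => ud (by rw [show u = 0 from congrArg Subtype.val c, det_zero]))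
    (z := ⟨z, mem zf⟩) hz
  refine ⟨((isUnit_iff_isUnit_det _).2 (un t t0).isUnit).unit, t.2, fun s c => ?_⟩
  have b : u = t.1 * (τ t).1 := congrArg Subtype.val ht
  rw [IsUnit.unit_spec, b, mul_assoc, rt t s c, mul_assoc]

end

/-- **LFF** -/
theorem lff : LFF := by
  intro k K _ _ _ _ _ o d d' κ hB ⟨s0, h0⟩ hk hn hs x u ⟨_, _, hu, z, z0, zf, hz⟩
  obtain ⟨F, _, _, _, _⟩ := hk.resolve_left hn
  have := GFF.mk' F k
  have : IsGalois k K := IsSepClosure.isGalois
  exact land3 ⟨fun σ τ => (hB.mul σ τ).imp fun _ e => e.2.1,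
    hB.cont.imp fun σ _ e => ⟨e.1, 1, by rw [e.2.2.1, one_smul, Units.val_one]⟩⟩ hs h0 hu z0 zf
    (hz s0 h0)

end Vale.Agent.P011UF2d
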